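import Crest.Agent.X212.Top11.CutU_Mg
import Crest.Agent.X212.Gla92.Ca

/-! # Row 212, GL (helper67): Lipschitz bounds over small parameters -/

set_option autoImplicit false
set_option linter.unusedSectionVars false
set_option maxSynthPendingDepth 3
noncomputable section
open scoped Manifold ContDiff Topology InnerProductSpace ENNReal NNReal
open MeasureTheory Set Function Filter Metric

namespace Crest.Agent.X212.Lpe67
open An Sob92 Prm93 Mod61 Mon62 Mon62.Dm Gl67 Gla92 Nd18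
open Gj67 (FU SU)

section fmt
variable {E : Type} [NormedAddCommGroup E] [NormedSpace ℝ E] [FiniteDimensional ℝ E]
  [MeasurableSpace E] [BorelSpace E]
  {HM : Type} [TopologicalSpace HM] {I : ModelWithCorners ℝ E HM} [I.Boundaryless]
  {M : Type} [TopologicalSpace M] [ChartedSpace HM M] [IsManifold I ∞ M]
  [MeasurableSpace M] [T2Space M] [BorelSpace M] [SecondCountableTopology M]
  {ι lam h : Type} [Fintype ι] [Fintype lam] [Fintype h]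
  {T U Up R : Type} [NormedAddCommGroup T] [NormedSpace ℝ T] [NormedAddCommGroup U]
  [NormedSpace ℝ U] [NormedAddCommGroup Up] [NormedSpace ℝ Up] [NormedAddCommGroup R]
  [NormedSpace ℝ R] {N r k : ℕ} {Jc : En (Fin N)} {J : Type} {𝔉 : J → Fam I M ι lam T}
  {s : ∀ i, Sid (𝔉 i) N Jc U Up R} {Ω : Set M} {δ r₀ r₁ ρ : ℝ} {C : ℕ → ℝ}

theorem lip0 {n m : ℕ} {ρ : ℝ≥0} {H : Un s δ r₀} {c : Cm N r h R} {ct : h → Cut M lam}
    {ε : ∀ i, Eqn (𝔉 i) r n m ct} (G : Gm s Ω) (hk : 4 ≤ k)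
    (a : H.Cl c k ρ False fun i => (ε i).e) (b : H.Cr k ρ c ε) :
    ∃ C : ℝ≥0, ∀ i, ((s i).sd c (ε i)).Ok r₀ ∧ ((s i).sd c (ε i)).Lip δ k r₀ ρ C :=
  let ⟨C, e⟩ := a.lip G hk (Un.sc_eR G hk a b)
  ⟨C, fun i => ⟨a.ok hk (fun i => (s i).eR c (ε i)) i, e i⟩⟩

theorem sd_rs {𝔉 : Fam I M ι lam T} (s : Sid 𝔉 N Jc U Up R) (Q' : Set T) (c : Cm N r h R) {n m : ℕ}
    {ct : h → Cut M lam} (ε : Eqn 𝔉 r n m ct) : (rs s Q').sd c ⟨ε.e, ε.σ⟩ = s.sd c ε := rfl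

theorem evS_all {α : Type} {S : Set α} (hS : S.Finite) {P : α → ℝ → Prop}
    (a : ∀ x ∈ S, EvS (P x)) : ∀ᶠ ρ in 𝓝[>] 0, ∀ x ∈ S, P x ρ :=
  (eventually_all_finite hS).2 fun x hx =>
    let ⟨_, b, e⟩ := a x hx; mem_of_superset (Ioc_mem_nhdsGT b) e

end fmt

open M An.Job Gj67

variable {Wi : Type} {X : Mf 4} {A κ lam : Type} [Fintype A] [Fintype κ] [Fintype lam]
  [DecidableEq lam] {M : Mark X A κ} {W : World M} {L : ML M lam} {Λ : Lns W L}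
  {A' h : Type} [Fintype A'] [DecidableEq A'] [Fintype h] {r n k : ℕ} {J : Job Wi Λ A' h r n}
  {U Up R : Type} [NormedAddCommGroup U] [NormedSpace ℝ U] [FiniteDimensional ℝ U]
  [NormedAddCommGroup Up] [NormedSpace ℝ Up] [NormedAddCommGroup R] [NormedSpace ℝ R]
  {T : Type} [NormedAddCommGroup T] [NormedSpace ℝ T] {c : M.Cl} {N : ℕ} {Jc : En (Fin N)}
  {δ r₀ r₁ ρ : ℝ} {C : ℕ → ℝ}

section fam
variable {ι : Type} {G0 : ι → Geo (W.Z c).I (W.Z c).M (Option κ) (lam ⊕ lam)}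
  {θ : ι → T → A' → ℝ} {Q : ι → Set T}
  (s : ∀ i, Sid (jF J c (G0 i) (θ i) (Q i)) N Jc U Up R) {Ω : Set (W.Z c).M}

/-- the sides over small parameters -/
abbrev sr (ρ : ℝ) (i : ι) : Sid (jF J c (G0 i) (θ i) (Q i ∩ ball 0 ρ)) N Jc U Up R :=
  rs (s i) (ball 0 ρ)

variable (Ω δ k) in
/-- fixed limit and good necks, or no neck terms and a decaying spinor -/
def Br (ρ : ℝ) : Prop :=
  ((∀ i, (s i).b = 0) ∧ ∀ x b, 2 * δ < (J.xs x).N.δ ∧ NkA (sr s ρ) Ω x b) ∨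
    (∀ x, Ink3.Nil (J.xs x).N ∧ (J.xs x).ty = 0) ∧ Mo s δ k

theorem sd_sr (cm : Cm N r h R) (q : ι → Wi →₀ ℝ) (i : ι) :
    (sr s ρ i).sd cm (εJ J G0 θ (fun i => Q i ∩ ball 0 ρ) q i) = (s i).sd cm (εJ J G0 θ Q q i) :=
  sd_rs (s i) (ball 0 ρ) cm (εJ J G0 θ Q q i)

variable {s}

/-- **the equations of a job over small parameters** -/
theorem core (hJ : J.OK) (hk : 7 ≤ k)
    (cm : Cm N r h R) (ok : ∀ i, (s i).OK) (fu : ∀ i, FU (jF J c (G0 i) (θ i) (Q i)) r₁ C)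
    (su : ∀ i, SU (s i) C) (lo : Lo s Ω) (G : Gm s Ω) (h0 : 0 ≤ δ) (h1 : δ ≤ 1 / 32)
    (r0 : 0 ≤ r₀) (r1 : r₀ < ρ) (r2 : ρ ≤ r₁) (th : Th J G0 θ (fun i => Q i ∩ ball 0 ρ) r₀)
    {q : ι → Wi →₀ ℝ} {S : Finset Wi} (tm : ∀ w ∈ S, TmA J θ (fun i => Q i ∩ ball 0 ρ) Ω w)
    (hq : Qb q S) (ct : ∀ j, CtU (sr s ρ) Ω (J.cut c j)) (br : Br k δ s Ω ρ) (b : ℝ≥0) :
    ∃ H : Un (sr s ρ) δ r₀, H.Cl cm k b False (fun i t => eqX J c (q i) (θ i t)) ∧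
      H.Cr k b cm (εJ J G0 θ (fun i => Q i ∩ ball 0 ρ) q) := by
  have H : Un (sr s ρ) δ r₀ :=
    un_of ok fu su (fun i => lt_fam (ok i).fam.G0) lo G h0 (by linarith) r0 r1 r2
  have L' : Lo (sr s ρ) Ω := lo_rs lo
  have ⟨ca, nk⟩ : Ca k H cm b Ω ∧ ∀ x y, NkC k b H cm x y := by
    rcases br with ⟨e, a⟩ | ⟨e, a⟩
    · have e' : ∀ i x u, (sr s ρ i).b x u = 0 := fun i x u => by rw [e i]; rfl
      exact ⟨ca0 H cm hk e' L', fun x y => nkC_of hJ (H.cfOK cm hk (H.hb0 e'))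
        (uv_of ok fu (fun _ => rfl) lo G h1 r1 r2) (gm_rs G) L' th (a x y).1 (a x y).2⟩
    · exact ⟨Cap39.ca H cm hk L' (mo_rs a), fun x _ => nkC_nil (e x).1 (e x).2⟩
  exact ⟨H, cl_eqX hJ hk th ca tm hq nk, cr hJ hk th ca tm hq Top11.Cu.cutStmt2 L' ct⟩

theorem lip_sr {cm : Cm N r h R} {q : ι → Wi →₀ ℝ} {b : ℝ≥0} {H : Un (sr s ρ) δ r₀} (G : Gm s Ω)
    (hk : 4 ≤ k) (a : H.Cl cm k b False fun i t => eqX J c (q i) (θ i t))
    (e : H.Cr k b cm (εJ J G0 θ (fun i => Q i ∩ ball 0 ρ) q)) : ∃ C : ℝ≥0, ∀ i,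
    ((s i).sd cm (εJ J G0 θ Q q i)).Ok r₀ ∧ ((s i).sd cm (εJ J G0 θ Q q i)).Lip δ k r₀ b C :=
  (lip0 (gm_rs G) hk a e).imp fun _ l i => sd_sr s cm q i ▸ l i

end fam

variable [FiniteDimensional ℝ T] {G0 : Geo (W.Z c).I (W.Z c).M (Option κ) (lam ⊕ lam)}
  {θ : T → A' → ℝ} {Q : Set T} {s : Sid (jF J c G0 θ Q) N Jc U Up R}

/-- **one side** -/
theorem lip1 (hJ : J.OK) (hk : 7 ≤ k)
    (cm : Cm N r h R) (ok : s.OK) (r1 : 0 < r₁) (fu : FU (jF J c G0 θ Q) r₁ C) (su : SU s C)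
    (G : Gm (fun _ : Unit => s) univ) (h0 : 0 ≤ δ) (h1 : δ ≤ 1 / 32) (hθ : ContDiff ℝ ∞ θ)
    (tm : ∀ w, EvS fun ρ => TmA (c := c) J (fun _ : Unit => θ) (fun _ => Q ∩ ball 0 ρ) univ w)
    (ct : ∀ j, EvS fun ρ => CtU (sr (fun _ : Unit => s) ρ) univ (J.cut c j))
    (br : (s.b = 0 ∧ ∀ x b, 2 * δ < (J.xs x).N.δ ∧
      EvS fun ρ => NkA (sr (fun _ : Unit => s) ρ) univ x b) ∨
      (∀ x, Ink3.Nil (J.xs x).N ∧ (J.xs x).ty = 0) ∧ Mo (fun _ : Unit => s) δ k) (q : Wi →₀ ℝ) :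
    ∃ ρ C : ℝ≥0, 0 < ρ ∧ (s.sd cm (εJ J (fun _ => G0) (fun _ => θ) (fun _ => Q) (fun _ => q) ())).Ok ρ ∧
      (s.sd cm (εJ J (fun _ => G0) (fun _ => θ) (fun _ => Q) (fun _ => q) ())).Lip δ k ρ ρ C := by
  have := FiniteDimensional.proper ℝ T
  have b : ∀ᶠ ρ in 𝓝[>] 0, Br k δ (fun _ : Unit => s) univ ρ := br.elim
    (fun a => (evS_all (S := univ) (P := fun (x : A × Option Bool) ρ => NkA _ univ x.1 x.2)
      finite_univ fun x _ => (a.2 x.1 x.2).2).mono fun ρ e =>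
        .inl ⟨fun _ => a.1, fun x y => ⟨(a.2 x y).1, e (x, y) trivial⟩⟩)
    fun a => .of_forall fun _ => .inr a
  obtain ⟨ρ, ⟨⟨b1, b2⟩, b3⟩, b4⟩ := (((b.and (evS_all q.support.finite_toSet fun w _ => tm w)).and
    (evS_all finite_univ fun j _ => ct j)).and (Ioc_mem_nhdsGT r1)).exists
  have p := half_pos b4.1
  have o := ok.fam.opn.inter (isOpen_ball (x := 0) (ε := ρ))
  have sub : closedBall 0 (ρ / 2) ⊆ Q ∩ ball 0 ρ := fun t ht =>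
    ⟨fu.sub (closedBall_subset_closedBall ((half_le_self b4.1.le).trans b4.2) ht),
      closedBall_subset_ball (half_lt_self b4.1) ht⟩
  obtain ⟨H, a1, a2⟩ := core hJ hk cm (fun _ => ok) (fun _ => fu) (fun _ => su) (lo_fix s) G h0 h1
    p.le (half_lt_self b4.1) b4.2 ⟨.of (h1 := fun _ => o) (h2 := fun _ => sub) (UC.of_compact
      (fun _ => isCompact_closedBall _ _) fun _ => hθ.contDiffOn), _,
      (isCompact_closedBall 0 ρ).image hθ.continuous, fun _ t ht =>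
        mem_image_of_mem _ (ball_subset_closedBall ht.2)⟩ b2 (qb_cst q) (fun j => b3 j trivial) b1
    ⟨_, p.le⟩
  obtain ⟨C, e⟩ := lip_sr G (by omega) a1 a2
  exact ⟨⟨_, p.le⟩, C, p, e ()⟩

end Crest.Agent.X212.Lpe67
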